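import Mathlib

/-!
P090: Lipschitz-free spaces and the bounded approximation property, definitions.

* `Lip0 M o`: the Lipschitz functions `M → ℝ` vanishing at the base point `o`, normed by the
  Lipschitz constant (the norm is transported from the bounded functions on `M × M` along the
  difference quotient map `f ↦ ((f x - f y) / dist x y)`; see `lip0_abs_sub_le` and
  `lip0_norm_le`).
* `delta M o x`: the evaluation functional at `x` on `Lip0 M o`.
* `free M o`: the closed linear span of the evaluation functionals in the dual of `Lip0 M o`.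
* `BAP lam X`: the `lam`-bounded approximation property of a real normed space `X`.
* `UniformlyDiscrete M`: the nonzero distances of `M` are bounded below by a positive constant.
-/

namespace Vale.Agent.Lib.P090

open scoped NNReal ENNReal

universe u

section

variable (M : Type u) [MetricSpace M]

/-- The Lipschitz functions `M → ℝ` that vanish at the base point `o`, as a linear subspace of
the space of all real functions on `M`. -/
def lip0Sub (o : M) : Submodule ℝ (M → ℝ) where
  carrier := {f | f o = 0 ∧ ∃ K : ℝ≥0, LipschitzWith K f}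
  add_mem' := by
    rintro f g ⟨hf0, Kf, hf⟩ ⟨hg0, Kg, hg⟩
    exact ⟨by simp [hf0, hg0], Kf + Kg, hf.add hg⟩
  zero_mem' := ⟨rfl, 0, LipschitzWith.const (0 : ℝ)⟩
  smul_mem' := by
    rintro c f ⟨hf0, Kf, hf⟩
    refine ⟨by simp [hf0], ‖c‖₊ * Kf, ?_⟩
    refine LipschitzWith.of_dist_le_mul fun x y => ?_
    have h1 := hf.dist_le_mul x y
    have h2 : dist ((c • f) x) ((c • f) y) = ‖c‖ * dist (f x) (f y) := by
      simp only [Pi.smul_apply, smul_eq_mul, Real.dist_eq, ← mul_sub, abs_mul, Real.norm_eq_abs]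
    rw [h2, NNReal.coe_mul, coe_nnnorm, mul_assoc]
    exact mul_le_mul_of_nonneg_left h1 (norm_nonneg c)

/-- `Lip_0(M)`: the type of Lipschitz functions `M → ℝ` vanishing at the base point `o`.
It is a copy of the subspace `lip0Sub M o` that does NOT carry the topology of pointwise
convergence; its topology is the one of the norm defined below (the Lipschitz constant). -/
def Lip0 (o : M) : Type u := ↥(lip0Sub M o)

instance instAddCommGroupLip0 (o : M) : AddCommGroup (Lip0 M o) :=
  inferInstanceAs (AddCommGroup ↥(lip0Sub M o))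

instance instModuleLip0 (o : M) : Module ℝ (Lip0 M o) :=
  inferInstanceAs (Module ℝ ↥(lip0Sub M o))

variable {M}

/-- The function underlying an element of `Lip0 M o`. -/
def Lip0.fn {o : M} (f : Lip0 M o) : M → ℝ := Subtype.val (p := fun g => g ∈ lip0Sub M o) f

theorem Lip0.fn_add {o : M} (f g : Lip0 M o) (x : M) : (f + g).fn x = f.fn x + g.fn x := rfl

theorem Lip0.fn_smul {o : M} (c : ℝ) (f : Lip0 M o) (x : M) : (c • f).fn x = c * f.fn x := rfl

theorem Lip0.fn_zero {o : M} (x : M) : (0 : Lip0 M o).fn x = 0 := rfl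

theorem Lip0.fn_base {o : M} (f : Lip0 M o) : f.fn o = 0 :=
  (Subtype.property (p := fun g => g ∈ lip0Sub M o) f).1

theorem Lip0.fn_lipschitz {o : M} (f : Lip0 M o) : ∃ K : ℝ≥0, LipschitzWith K f.fn :=
  (Subtype.property (p := fun g => g ∈ lip0Sub M o) f).2

theorem Lip0.ext {o : M} {f g : Lip0 M o} (h : ∀ x, f.fn x = g.fn x) : f = g :=
  Subtype.ext (funext h)

/-- The element of `Lip0 M o` given by a Lipschitz function vanishing at `o`. -/
def Lip0.mk {o : M} (f : M → ℝ) (h0 : f o = 0) (K : ℝ≥0) (hK : LipschitzWith K f) : Lip0 M o :=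
  (⟨f, h0, K, hK⟩ : ↥(lip0Sub M o))

theorem Lip0.mk_fn {o : M} (f : M → ℝ) (h0 : f o = 0) (K : ℝ≥0) (hK : LipschitzWith K f)
    (x : M) : (Lip0.mk f h0 K hK).fn x = f x := rfl

/-- The difference quotient of `f` at the pair `p` (zero on the diagonal). -/
noncomputable def dq (f : M → ℝ) (p : M × M) : ℝ := (f p.1 - f p.2) / dist p.1 p.2

theorem dq_abs_le {f : M → ℝ} {K : ℝ≥0} (hf : LipschitzWith K f) (p : M × M) :
    |dq f p| ≤ K := by
  unfold dq
  rcases eq_or_ne (dist p.1 p.2) 0 with h | h
  · rw [h, div_zero, abs_zero]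
    exact K.2
  · have hpos : 0 < dist p.1 p.2 := lt_of_le_of_ne dist_nonneg (Ne.symm h)
    rw [abs_div, abs_of_pos hpos, div_le_iff₀ hpos]
    have := hf.dist_le_mul p.1 p.2
    rwa [Real.dist_eq] at this

theorem memℓp_dq {o : M} (f : Lip0 M o) : Memℓp (dq f.fn) ∞ := by
  obtain ⟨K, hK⟩ := f.fn_lipschitz
  rw [memℓp_infty_iff]
  refine ⟨K, ?_⟩
  rintro _ ⟨p, rfl⟩
  simpa [Real.norm_eq_abs] using dq_abs_le hK p

/-- The difference quotient map from `Lip0 M o` into the bounded functions on `M × M`. -/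
noncomputable def deLeeuw (o : M) : Lip0 M o →ₗ[ℝ] lp (fun _ : M × M => ℝ) ∞ where
  toFun f := ⟨dq f.fn, memℓp_dq f⟩
  map_add' f g := by
    apply lp.ext
    funext p
    simp only [lp.coeFn_add, Pi.add_apply, dq, Lip0.fn_add]
    ring
  map_smul' c f := by
    apply lp.ext
    funext p
    simp only [lp.coeFn_smul, Pi.smul_apply, dq, Lip0.fn_smul, smul_eq_mul,
      RingHom.id_apply]
    ring

theorem deLeeuw_apply {o : M} (f : Lip0 M o) (p : M × M) :
    (deLeeuw o f : M × M → ℝ) p = (f.fn p.1 - f.fn p.2) / dist p.1 p.2 := rfl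

theorem deLeeuw_injective (o : M) : Function.Injective (deLeeuw o) := by
  rw [injective_iff_map_eq_zero]
  intro f hf
  apply Lip0.ext
  intro x
  have h1 : (deLeeuw o f : M × M → ℝ) (x, o) = 0 := by rw [hf]; rfl
  rw [deLeeuw_apply] at h1
  have hfo : f.fn o = 0 := f.fn_base
  simp only [hfo, sub_zero] at h1
  rw [Lip0.fn_zero]
  rcases div_eq_zero_iff.mp h1 with h | h
  · exact h
  · have hx : x = o := dist_eq_zero.mp h
    rw [hx, hfo]

/-- The norm of `Lip0 M o`: the supremum of the difference quotients, that is, the Lipschitz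
constant (see `lip0_abs_sub_le` and `lip0_norm_le`). -/
noncomputable instance instNormedAddCommGroupLip0 (o : M) : NormedAddCommGroup (Lip0 M o) :=
  NormedAddCommGroup.induced (Lip0 M o) (lp (fun _ : M × M => ℝ) ∞) (deLeeuw o)
    (deLeeuw_injective o)

noncomputable instance instNormedSpaceLip0 (o : M) : NormedSpace ℝ (Lip0 M o) :=
  NormedSpace.induced ℝ (Lip0 M o) (lp (fun _ : M × M => ℝ) ∞) (deLeeuw o)

theorem lip0_norm_def {o : M} (f : Lip0 M o) : ‖f‖ = ‖deLeeuw o f‖ := rfl

/-- The norm of `Lip0 M o` is a Lipschitz constant. -/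
theorem lip0_abs_sub_le {o : M} (f : Lip0 M o) (x y : M) :
    |f.fn x - f.fn y| ≤ ‖f‖ * dist x y := by
  have h1 : ‖(deLeeuw o f : M × M → ℝ) (x, y)‖ ≤ ‖deLeeuw o f‖ :=
    lp.norm_apply_le_norm (by simp) (deLeeuw o f) (x, y)
  rw [deLeeuw_apply, Real.norm_eq_abs, ← lip0_norm_def] at h1
  rcases eq_or_ne (dist x y) 0 with h | h
  · have hxy : x = y := dist_eq_zero.mp h
    simp [hxy]
  · have hpos : 0 < dist x y := lt_of_le_of_ne dist_nonneg (Ne.symm h)
    simp only at h1
    rwa [abs_div, abs_of_pos hpos, div_le_iff₀ hpos] at h1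

/-- The norm of `Lip0 M o` is the least Lipschitz constant. -/
theorem lip0_norm_le {o : M} (f : Lip0 M o) (K : ℝ) (hK : 0 ≤ K)
    (h : ∀ x y, |f.fn x - f.fn y| ≤ K * dist x y) : ‖f‖ ≤ K := by
  rw [lip0_norm_def]
  refine lp.norm_le_of_forall_le hK fun p => ?_
  rw [deLeeuw_apply, Real.norm_eq_abs]
  rcases eq_or_ne (dist p.1 p.2) 0 with h0 | h0
  · rw [h0, div_zero, abs_zero]
    exact hK
  · have hpos : 0 < dist p.1 p.2 := lt_of_le_of_ne dist_nonneg (Ne.symm h0)
    rw [abs_div, abs_of_pos hpos, div_le_iff₀ hpos]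
    exact h p.1 p.2

variable (M)

/-- The evaluation functional `δ_x` on `Lip0 M o`. -/
noncomputable def delta (o : M) (x : M) : Lip0 M o →L[ℝ] ℝ :=
  LinearMap.mkContinuous
    { toFun := fun f => f.fn x
      map_add' := fun _ _ => rfl
      map_smul' := fun _ _ => rfl }
    (dist x o) (fun f => by
      have h := lip0_abs_sub_le f x o
      have hfo : f.fn o = 0 := f.fn_base
      rw [hfo, sub_zero, mul_comm] at h
      exact h)

theorem delta_apply (o x : M) (f : Lip0 M o) : delta M o x f = f.fn x := rfl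

/-- The Lipschitz-free space of `M`: the closed linear span of the evaluation functionals in
the dual of `lip0 M o`. -/
noncomputable def free (o : M) : Submodule ℝ (Lip0 M o →L[ℝ] ℝ) :=
  (Submodule.span ℝ (Set.range (delta M o))).topologicalClosure

/-- `M` is uniformly discrete: its nonzero distances are bounded below by a positive constant. -/
def UniformlyDiscrete : Prop := ∃ θ : ℝ, 0 < θ ∧ ∀ x y : M, x ≠ y → θ ≤ dist x y

end

/-- The `lam`-bounded approximation property of a real normed space `X`: every compact set is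
approximated uniformly, to any accuracy, by a finite-rank bounded operator of norm at most
`lam`. -/
def BAP (lam : ℝ) (X : Type*) [NormedAddCommGroup X] [NormedSpace ℝ X] : Prop :=
  ∀ C : Set X, IsCompact C → ∀ ε : ℝ, 0 < ε → ∃ T : X →L[ℝ] X,
    FiniteDimensional ℝ (LinearMap.range (T : X →ₗ[ℝ] X)) ∧ ‖T‖ ≤ lam ∧
      ∀ u ∈ C, ‖T u - u‖ < ε

end Vale.Agent.Lib.P090
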